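import Vale.Agent.P209.H519.Dom

/-! # P209 / Tetris: the domination inequality for the LOBE case (#7874, #7929).
Owner: helper291.

The model is cut at `u i < R - r0` (`R / 2 ≤ r0 < R`, `r0` = the big ball, put in statically), the
capacity function is `2 * (R - 2 u_i - ∑ c_b u_b) - max (r0 - u_i - ∑ c_b u_b) 0`
(`c_b ≤ 2`; for the 4-cycle `c = (2, 1, …, 1)`, this is `(C - 2 w) / 2`). -/

set_option linter.all false

open MeasureTheory Set Matrix
open scoped ENNReal

namespace Vale.Agent.P209.H291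

open Vale.Agent.P209.H519

/-! ## 1. Slices -/

theorem slice_gen {m : ℕ} (i : Fin (m + 1)) (c : Fin m → ℝ) (hc : ∀ b, 0 < c b) {α : ℝ → ℝ}
    (hα : Measurable α) {ρ : ℝ} (hpos : ∀ x ∈ Ioo 0 ρ, 0 < α x)
    (G : (Fin (m + 1) → ℝ) → ℝ≥0∞) (hG : Measurable G) (hsup : ∀ u, G u ≠ 0 → 0 < u i ∧ u i < ρ) :
    ∫⁻ u, G u * ENNReal.ofReal (α (u i) - ∑ b, c b * u (i.succAbove b)) =
      ∫⁻ x in Ioo 0 ρ, ENNReal.ofReal (α x ^ (m + 1) / ∏ b, c b) *
        Phi i G x (fun b => α x / c b) := by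
  have hm1 : Measurable fun u : Fin (m + 1) → ℝ =>
      G u * ENNReal.ofReal (α (u i) - ∑ b, c b * u (i.succAbove b)) := by
    refine hG.mul (Measurable.ennreal_ofReal ?_)
    exact (hα.comp (measurable_pi_apply i)).sub (by fun_prop)
  rw [slice i _ hm1, ← lintegral_indicator measurableSet_Ioo]
  refine lintegral_congr fun x => ?_
  by_cases hx : x ∈ Ioo 0 ρ
  · rw [indicator_of_mem hx]
    have h := scale_eq hc (hpos x hx) (fun v => G (i.insertNth x v)) (hG.comp (meas_ins i x))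
    simp only [Fin.insertNth_apply_same, Fin.insertNth_apply_succAbove]
    rw [h]
    rfl
  · rw [indicator_of_notMem hx]
    refine (lintegral_congr fun v => ?_).trans lintegral_zero
    by_cases h0 : G (i.insertNth x v) = 0
    · rw [h0, zero_mul]
    · have h1 := hsup _ h0
      rw [Fin.insertNth_apply_same] at h1
      exact absurd h1 hx

/-! ## 2. The coupling -/

theorem two_ineq {a b z : ℝ} (hb : 0 ≤ b) (hab : b ≤ a) (hz : 0 ≤ z) (n : ℕ) :
    0 ≤ (b + 2 * z) ^ n - (b + z) ^ n ∧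
      (b + 2 * z) ^ n - (b + z) ^ n ≤ (a + 2 * z) ^ n - (a + z) ^ n := by
  induction n with
  | zero => simp
  | succ n ih =>
    obtain ⟨h0, h1⟩ := ih
    have e : ∀ x : ℝ, (x + 2 * z) ^ (n + 1) - (x + z) ^ (n + 1) =
        (x + 2 * z) * ((x + 2 * z) ^ n - (x + z) ^ n) + z * (x + z) ^ n := by
      intro x; ring
    have h2 : (b + z) ^ n ≤ (a + z) ^ n := pow_le_pow_left₀ (by linarith) (by linarith) n
    have h3 : 0 ≤ (b + z) ^ n := pow_nonneg (by linarith) n
    have h4 : 0 ≤ b + 2 * z := by linarith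
    rw [e b, e a]
    refine ⟨add_nonneg (mul_nonneg h4 h0) (mul_nonneg hz h3), ?_⟩
    refine add_le_add ?_ (mul_le_mul_of_nonneg_left h2 hz)
    exact mul_le_mul (by linarith) h1 h0 (by linarith)

/-- the numerator of the tail function of the model -/
noncomputable def NN (n : ℕ) (r0 R s : ℝ) : ℝ := (R - 2 * s) ^ n - (r0 - s) ^ n

/-- the slice `s` of the model is coupled with the slice `sg s` of the ball `r` -/
noncomputable def sg (n : ℕ) (r0 R r s : ℝ) : ℝ :=
  r - r * (NN n r0 R s / (R ^ n - r0 ^ n)) ^ ((n : ℝ)⁻¹)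

section coupling

variable {n : ℕ} {r0 R r s : ℝ}

theorem NN_zero : NN n r0 R 0 = R ^ n - r0 ^ n := by simp [NN]

theorem NN_end : NN n r0 R (R - r0) = 0 := by
  unfold NN
  have : R - 2 * (R - r0) = r0 - (R - r0) := by ring
  rw [this, sub_self]

theorem hasDerivAt_NN : HasDerivAt (NN n r0 R)
    (-((n : ℝ) * (2 * (R - 2 * s) ^ (n - 1) - (r0 - s) ^ (n - 1)))) s := by
  have h1 : HasDerivAt (fun s : ℝ => R - 2 * s) (-2) s := by
    simpa using ((hasDerivAt_id s).const_mul (2 : ℝ)).const_sub R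
  have h2 : HasDerivAt (fun s : ℝ => r0 - s) (-1) s := by
    simpa using (hasDerivAt_id s).const_sub r0
  refine ((h1.pow n).sub (h2.pow n)).congr_deriv ?_
  ring

theorem ee_pos (hn : n ≠ 0) (h2 : R ≤ 2 * r0) (hs : s ∈ Ioo 0 (R - r0)) :
    0 < 2 * (R - 2 * s) ^ (n - 1) - (r0 - s) ^ (n - 1) := by
  have hB : 0 < r0 - s := by linarith [hs.1, hs.2]
  have hA : r0 - s ≤ R - 2 * s := by linarith [hs.2]
  have h3 : (r0 - s) ^ (n - 1) ≤ (R - 2 * s) ^ (n - 1) := pow_le_pow_left₀ hB.le hA _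
  have h4 : 0 < (R - 2 * s) ^ (n - 1) := pow_pos (by linarith) _
  linarith

theorem NN_anti (hn : n ≠ 0) (h2 : R ≤ 2 * r0) : StrictAntiOn (NN n r0 R) (Icc 0 (R - r0)) := by
  refine strictAntiOn_of_deriv_neg (convex_Icc _ _) ?_ ?_
  · exact fun s _ => hasDerivAt_NN.continuousAt.continuousWithinAt
  · intro s hs
    rw [interior_Icc] at hs
    rw [hasDerivAt_NN.deriv, neg_lt_zero]
    exact mul_pos (by exact_mod_cast Nat.pos_of_ne_zero hn) (ee_pos hn h2 hs)

theorem DD_pos (hn : n ≠ 0) (h2 : R ≤ 2 * r0) (hR : r0 < R) : 0 < R ^ n - r0 ^ n :=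
  sub_pos.2 (pow_lt_pow_left₀ hR (by linarith) hn)

theorem qq_mem (hn : n ≠ 0) (h2 : R ≤ 2 * r0) (hR : r0 < R) (hs : s ∈ Ioo 0 (R - r0)) :
    NN n r0 R s / (R ^ n - r0 ^ n) ∈ Ioo (0 : ℝ) 1 := by
  have hD := DD_pos hn h2 hR
  have hc : (0 : ℝ) ≤ R - r0 := by linarith
  have h3 := NN_anti hn h2 ⟨le_refl _, hc⟩ ⟨hs.1.le, hs.2.le⟩ hs.1
  have h4 := NN_anti hn h2 ⟨hs.1.le, hs.2.le⟩ ⟨hc, le_refl _⟩ hs.2
  rw [NN_zero] at h3
  rw [NN_end] at h4
  exact ⟨div_pos h4 hD, (div_lt_one hD).2 h3⟩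

theorem sg_mem (hn : n ≠ 0) (h2 : R ≤ 2 * r0) (hR : r0 < R) (hr : 0 < r)
    (hs : s ∈ Ioo 0 (R - r0)) : sg n r0 R r s ∈ Ioo 0 r := by
  have hq := qq_mem hn h2 hR hs
  have h3 : 0 < (NN n r0 R s / (R ^ n - r0 ^ n)) ^ ((n : ℝ)⁻¹) := Real.rpow_pos_of_pos hq.1 _
  have h4 : (NN n r0 R s / (R ^ n - r0 ^ n)) ^ ((n : ℝ)⁻¹) < 1 :=
    Real.rpow_lt_one hq.1.le hq.2 (by positivity)
  unfold sg
  constructor <;> nlinarith

theorem sg_pow (hn : n ≠ 0) (h2 : R ≤ 2 * r0) (hR : r0 < R)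
    (hs : s ∈ Ioo 0 (R - r0)) :
    (r - sg n r0 R r s) ^ n = r ^ n * (NN n r0 R s / (R ^ n - r0 ^ n)) := by
  have hq := qq_mem hn h2 hR hs
  have h3 : r - sg n r0 R r s = r * (NN n r0 R s / (R ^ n - r0 ^ n)) ^ ((n : ℝ)⁻¹) := by
    unfold sg; ring
  rw [h3, mul_pow, Real.rpow_inv_natCast_pow hq.1.le hn]

theorem sg_le (hn : n ≠ 0) (h2 : R ≤ 2 * r0) (hR : r0 < R) (hr : 0 < r) (hrc : r ≤ R - r0)
    (hs : s ∈ Ioo 0 (R - r0)) : sg n r0 R r s ≤ s := by
  rcases le_total r s with hrs | hrs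
  · exact (sg_mem hn h2 hR hr hs).2.le.trans hrs
  have h0 : 0 ≤ r - sg n r0 R r s := by linarith [(sg_mem hn h2 hR hr hs).2]
  have key : r - s ≤ r - sg n r0 R r s := by
    refine le_of_pow_le_pow_left₀ hn h0 ?_
    rw [sg_pow hn h2 hR hs]
    have hD := DD_pos hn h2 hR
    have hc : 0 < R - r0 := by linarith
    -- compare with the ball `R - r0`
    have h3 : (r - s) * (R - r0) ≤ r * (R - r0 - s) := by nlinarith [hs.1]
    have h4 : (r - s) ^ n * (R - r0) ^ n ≤ r ^ n * (R - r0 - s) ^ n := by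
      rw [← mul_pow, ← mul_pow]
      exact pow_le_pow_left₀ (mul_nonneg (by linarith) hc.le) h3 n
    have h5 : (R - r0 - s) ^ n * (R ^ n - r0 ^ n) ≤ (R - r0) ^ n * NN n r0 R s := by
      have hy : 0 ≤ R - r0 - s := by linarith [hs.2]
      have h6 := (two_ineq (a := (R - r0) * (2 * r0 - R)) (b := (R - r0 - s) * (2 * r0 - R))
        (z := (R - r0) * (R - r0 - s)) (mul_nonneg hy (by linarith))
        (mul_le_mul_of_nonneg_right (by linarith [hs.1]) (by linarith))
        (mul_nonneg hc.le hy) n).2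
      have e1 : (R - r0 - s) * (2 * r0 - R) + 2 * ((R - r0) * (R - r0 - s)) =
          (R - r0 - s) * R := by ring
      have e2 : (R - r0 - s) * (2 * r0 - R) + (R - r0) * (R - r0 - s) =
          (R - r0 - s) * r0 := by ring
      have e3 : (R - r0) * (2 * r0 - R) + 2 * ((R - r0) * (R - r0 - s)) =
          (R - r0) * (R - 2 * s) := by ring
      have e4 : (R - r0) * (2 * r0 - R) + (R - r0) * (R - r0 - s) =
          (R - r0) * (r0 - s) := by ring
      rw [e1, e2, e3, e4, mul_pow, mul_pow, mul_pow, mul_pow] at h6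
      unfold NN
      linarith
    have hcn : 0 < (R - r0) ^ n := pow_pos hc n
    rw [mul_div_assoc', le_div_iff₀ hD]
    have h7 : (r - s) ^ n * (R ^ n - r0 ^ n) * (R - r0) ^ n ≤
        r ^ n * NN n r0 R s * (R - r0) ^ n := by
      calc (r - s) ^ n * (R ^ n - r0 ^ n) * (R - r0) ^ n
          = ((r - s) ^ n * (R - r0) ^ n) * (R ^ n - r0 ^ n) := by ring
        _ ≤ (r ^ n * (R - r0 - s) ^ n) * (R ^ n - r0 ^ n) :=
            mul_le_mul_of_nonneg_right h4 hD.le
        _ = r ^ n * ((R - r0 - s) ^ n * (R ^ n - r0 ^ n)) := by ring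
        _ ≤ r ^ n * ((R - r0) ^ n * NN n r0 R s) :=
            mul_le_mul_of_nonneg_left h5 (pow_nonneg hr.le n)
        _ = _ := by ring
    exact le_of_mul_le_mul_right h7 hcn
  linarith

theorem two_sg_le (hn : n ≠ 0) (h2 : R ≤ 2 * r0) (hR : r0 < R) (hr : 0 < r) (hrc : r ≤ R - r0)
    (hs : s ∈ Ioo 0 (R - r0)) : 2 * (r - sg n r0 R r s) ≤ R - 2 * s := by
  have hA : 0 ≤ R - 2 * s := by linarith [hs.1, hs.2]
  have hB : 0 ≤ r0 - s := by linarith [hs.1, hs.2]
  refine le_of_pow_le_pow_left₀ hn hA ?_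
  rw [mul_pow, sg_pow hn h2 hR hs]
  have hD := DD_pos hn h2 hR
  have hq := qq_mem hn h2 hR hs
  have hN : 0 ≤ NN n r0 R s := by
    have := mul_nonneg hq.1.le hD.le
    rwa [div_mul_cancel₀ _ hD.ne'] at this
  rw [← mul_assoc, mul_div_assoc', div_le_iff₀ hD, ← mul_pow]
  have h3 : (2 * r) ^ n ≤ R ^ n := pow_le_pow_left₀ (by linarith) (by linarith) n
  refine (mul_le_mul_of_nonneg_right h3 hN).trans ?_
  have h4 : (R - 2 * s) ^ n * r0 ^ n ≤ (r0 - s) ^ n * R ^ n := by
    rw [← mul_pow, ← mul_pow]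
    refine pow_le_pow_left₀ (mul_nonneg hA (by linarith)) ?_ n
    nlinarith [hs.1]
  unfold NN
  nlinarith

theorem hasDerivAt_sg (hn : n ≠ 0) (h2 : R ≤ 2 * r0) (hR : r0 < R)
    (hs : s ∈ Ioo 0 (R - r0)) : ∃ D, HasDerivAt (sg n r0 R r) D s ∧
      (r - sg n r0 R r s) ^ (n - 1) * D =
        r ^ n / (R ^ n - r0 ^ n) * (2 * (R - 2 * s) ^ (n - 1) - (r0 - s) ^ (n - 1)) := by
  have hq := qq_mem hn h2 hR hs
  have hD := DD_pos hn h2 hR
  set q := NN n r0 R s / (R ^ n - r0 ^ n) with hqd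
  set e := 2 * (R - 2 * s) ^ (n - 1) - (r0 - s) ^ (n - 1) with he
  have h1 : HasDerivAt (fun s => NN n r0 R s / (R ^ n - r0 ^ n))
      (-((n : ℝ) * e) / (R ^ n - r0 ^ n)) s := hasDerivAt_NN.div_const _
  have h3 := h1.rpow_const (p := (n : ℝ)⁻¹) (Or.inl (by rw [← hqd]; exact hq.1.ne'))
  have h4 := (h3.const_mul r).const_sub r
  refine ⟨_, h4, ?_⟩
  have h5 : r - sg n r0 R r s = r * q ^ ((n : ℝ)⁻¹) := by
    unfold sg; rw [← hqd]; ring
  rw [h5, ← hqd]
  have hn0 : (n : ℝ) ≠ 0 := by exact_mod_cast hn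
  have key : q ^ ((n : ℝ)⁻¹ - 1) * (q ^ ((n : ℝ)⁻¹)) ^ (n - 1) = 1 := by
    rw [← Real.rpow_natCast (q ^ ((n : ℝ)⁻¹)) (n - 1), ← Real.rpow_mul hq.1.le,
      ← Real.rpow_add hq.1]
    have : (n : ℝ)⁻¹ - 1 + (n : ℝ)⁻¹ * ((n - 1 : ℕ) : ℝ) = 0 := by
      rw [Nat.cast_sub (Nat.one_le_iff_ne_zero.2 hn)]
      field_simp
      push_cast
      ring
    rw [this, Real.rpow_zero]
  have hrn : r ^ (n - 1) * r = r ^ n := by
    rw [← pow_succ]
    congr 1
    omega
  calc (r * q ^ ((n : ℝ)⁻¹)) ^ (n - 1) *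
        -(r * (-((n : ℝ) * e) / (R ^ n - r0 ^ n) * (n : ℝ)⁻¹ * q ^ ((n : ℝ)⁻¹ - 1)))
      = (r ^ (n - 1) * r) * ((n : ℝ) * (n : ℝ)⁻¹) * (e / (R ^ n - r0 ^ n)) *
        (q ^ ((n : ℝ)⁻¹ - 1) * (q ^ ((n : ℝ)⁻¹)) ^ (n - 1)) := by
        rw [mul_pow]; ring
    _ = _ := by
        rw [key, hrn, mul_inv_cancel₀ hn0]
        ring

theorem sg_inj (hn : n ≠ 0) (h2 : R ≤ 2 * r0) (hR : r0 < R) (hr : 0 < r) :
    InjOn (sg n r0 R r) (Ioo 0 (R - r0)) := by
  intro s hs t ht h
  have h1 : (r - sg n r0 R r s) ^ n = (r - sg n r0 R r t) ^ n := by rw [h]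
  rw [sg_pow hn h2 hR hs, sg_pow hn h2 hR ht] at h1
  have hD := DD_pos hn h2 hR
  have h3 : NN n r0 R s = NN n r0 R t := by
    have hrn : r ^ n ≠ 0 := (pow_pos hr n).ne'
    have h4 := mul_left_cancel₀ hrn h1
    field_simp at h4
    exact h4
  exact (NN_anti hn h2).injOn ⟨hs.1.le, hs.2.le⟩ ⟨ht.1.le, ht.2.le⟩ h3

theorem sg_image (hn : n ≠ 0) (h2 : R ≤ 2 * r0) (hR : r0 < R) (hr : 0 < r) :
    sg n r0 R r '' Ioo 0 (R - r0) = Ioo 0 r := by
  refine Subset.antisymm ?_ ?_
  · rintro x ⟨s, hs, rfl⟩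
    exact sg_mem hn h2 hR hr hs
  · have hD := DD_pos hn h2 hR
    have hcont : ContinuousOn (sg n r0 R r) (Icc 0 (R - r0)) := by
      unfold sg
      refine continuousOn_const.sub (continuousOn_const.mul ?_)
      refine ContinuousOn.rpow_const ?_ (fun s hs => Or.inr (by positivity))
      refine ContinuousOn.div_const ?_ _
      exact fun s _ => hasDerivAt_NN.continuousAt.continuousWithinAt
    have h := intermediate_value_Ioo (by linarith : (0 : ℝ) ≤ R - r0) hcont
    have e0 : sg n r0 R r 0 = 0 := by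
      unfold sg
      rw [NN_zero, div_self hD.ne', Real.one_rpow]
      ring
    have e1 : sg n r0 R r (R - r0) = r := by
      unfold sg
      rw [NN_end, zero_div, Real.zero_rpow (by positivity)]
      ring
    rwa [e0, e1] at h

end coupling

/-! ## 3. One ball against the model -/

section ball

variable {m : ℕ} (i : Fin (m + 1)) {c : Fin m → ℝ} {R r0 r : ℝ}

/-- the open model -/
def OmL (i : Fin (m + 1)) (c : Fin m → ℝ) (R r0 : ℝ) : Set (Fin (m + 1) → ℝ) :=
  {u | (∀ a, 0 < u a) ∧ 2 * u i + ∑ b, c b * u (i.succAbove b) < R ∧ u i < R - r0}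

/-- half of the capacity function of the lobe model -/
noncomputable def EE (i : Fin (m + 1)) (c : Fin m → ℝ) (R r0 : ℝ) (u : Fin (m + 1) → ℝ) : ℝ :=
  2 * (R - (2 * u i + ∑ b, c b * u (i.succAbove b))) -
    max (r0 - (u i + ∑ b, c b * u (i.succAbove b))) 0

theorem EE_meas : Measurable (EE i c R r0) := by
  unfold EE
  refine Measurable.sub (by fun_prop) (Measurable.max (by fun_prop) measurable_const)

theorem OmL_meas : MeasurableSet (OmL i c R r0) := by
  have h : OmL i c R r0 = (⋂ a, {u | 0 < u a}) ∩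
      ({u | 2 * u i + ∑ b, c b * u (i.succAbove b) < R} ∩ {u | u i < R - r0}) := by
    ext u
    simp [OmL]
  rw [h]
  refine (MeasurableSet.iInter fun a => ?_).inter (MeasurableSet.inter ?_ ?_)
  · exact measurableSet_lt measurable_const (measurable_pi_apply a)
  · exact measurableSet_lt (by fun_prop) measurable_const
  · exact measurableSet_lt (measurable_pi_apply i) measurable_const

theorem EE_nonneg {u : Fin (m + 1) → ℝ}
    (h1 : 2 * u i + ∑ b, c b * u (i.succAbove b) < R) (h2 : u i < R - r0) :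
    0 ≤ EE i c R r0 u := by
  unfold EE
  rcases le_total (r0 - (u i + ∑ b, c b * u (i.succAbove b))) 0 with h | h
  · rw [max_eq_right h]; linarith
  · rw [max_eq_left h]; linarith

variable (hc : ∀ b, 0 < c b) (hc2 : ∀ b, c b ≤ 2) (h2 : R ≤ 2 * r0) (hR : r0 < R) (hr : 0 < r)
  (hrc : r ≤ R - r0)

include hc h2 hR in
/-- the points of the three slices which are coupled -/
theorem coupleL {x : ℝ} (hx : x ∈ Ioo 0 (R - r0)) (w : Fin m → ℝ) (hw : ∑ b, w b < 1) :
    ((i.insertNth x (fun b => (R - 2 * x) / c b * w b) : Fin (m + 1) → ℝ) ∈ OmL i c R r0 ↔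
      ∀ b, 0 < w b) ∧
    ((i.insertNth x (fun b => (r0 - x) / c b * w b) : Fin (m + 1) → ℝ) ∈ OmL i c R r0 ↔
      ∀ b, 0 < w b) ∧
    ((∀ b, 0 < w b) → (i.insertNth x (fun b => (r0 - x) / c b * w b) : Fin (m + 1) → ℝ) ≤
      i.insertNth x (fun b => (R - 2 * x) / c b * w b)) := by
  have hA : 0 < R - 2 * x := by linarith [hx.1, hx.2]
  have hB : 0 < r0 - x := by linarith [hx.1, hx.2]
  have hle : (∀ b, 0 < w b) → (i.insertNth x (fun b => (r0 - x) / c b * w b) : Fin (m + 1) → ℝ) ≤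
      i.insertNth x (fun b => (R - 2 * x) / c b * w b) := by
    intro hw0
    rw [Fin.insertNth_le_iff]
    refine ⟨by rw [Fin.insertNth_apply_same], fun b => ?_⟩
    show (r0 - x) / c b * w b ≤
      (i.insertNth x (fun b => (R - 2 * x) / c b * w b) : Fin (m + 1) → ℝ) (i.succAbove b)
    rw [Fin.insertNth_apply_succAbove]
    refine mul_le_mul_of_nonneg_right ?_ (hw0 b).le
    exact div_le_div_of_nonneg_right (by linarith [hx.2]) (hc b).le
  have hP : (∀ b, 0 < w b) →
      (i.insertNth x (fun b => (R - 2 * x) / c b * w b) : Fin (m + 1) → ℝ) ∈ OmL i c R r0 := by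
    intro hw0
    refine ⟨?_, ?_, ?_⟩
    · rw [Fin.forall_iff_succAbove i]
      refine ⟨by rw [Fin.insertNth_apply_same]; exact hx.1, fun b => ?_⟩
      rw [Fin.insertNth_apply_succAbove]
      exact mul_pos (div_pos hA (hc b)) (hw0 b)
    · simp only [Fin.insertNth_apply_same, Fin.insertNth_apply_succAbove]
      have : ∀ b, c b * ((R - 2 * x) / c b * w b) = (R - 2 * x) * w b := by
        intro b
        have := (hc b).ne'
        field_simp
      rw [Finset.sum_congr rfl fun b _ => this b, ← Finset.mul_sum]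
      nlinarith
    · rw [Fin.insertNth_apply_same]
      exact hx.2
  refine ⟨⟨fun h b => ?_, hP⟩, ⟨fun h b => ?_, fun hw0 => ?_⟩, hle⟩
  · have h3 := h.1 (i.succAbove b)
    rw [Fin.insertNth_apply_succAbove] at h3
    exact (mul_pos_iff_of_pos_left (div_pos hA (hc b))).1 h3
  · have h3 := h.1 (i.succAbove b)
    rw [Fin.insertNth_apply_succAbove] at h3
    exact (mul_pos_iff_of_pos_left (div_pos hB (hc b))).1 h3
  · have h3 := hP hw0
    have h4 := hle hw0
    refine ⟨?_, ?_, ?_⟩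
    · rw [Fin.forall_iff_succAbove i]
      refine ⟨by rw [Fin.insertNth_apply_same]; exact hx.1, fun b => ?_⟩
      rw [Fin.insertNth_apply_succAbove]
      exact mul_pos (div_pos hB (hc b)) (hw0 b)
    · refine lt_of_le_of_lt ?_ h3.2.1
      refine add_le_add (mul_le_mul_of_nonneg_left (h4 i) zero_le_two)
        (Finset.sum_le_sum fun b _ => ?_)
      exact mul_le_mul_of_nonneg_left (h4 _) (hc b).le
    · exact lt_of_le_of_lt (h4 i) h3.2.2

include hc hc2 h2 hR hr hrc in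
theorem coupleS {x : ℝ} (hx : x ∈ Ioo 0 (R - r0)) (w : Fin m → ℝ) (hw : ∑ b, w b < 1) :
    ((i.insertNth (sg (m + 2) r0 R r x) (fun b => (r - sg (m + 2) r0 R r x) * w b) :
        Fin (m + 1) → ℝ) ∈ OmL i c R r0 ↔ ∀ b, 0 < w b) ∧
    ((∀ b, 0 < w b) → (i.insertNth (sg (m + 2) r0 R r x)
        (fun b => (r - sg (m + 2) r0 R r x) * w b) : Fin (m + 1) → ℝ) ≤
      i.insertNth x (fun b => (R - 2 * x) / c b * w b)) := by
  have hn : m + 2 ≠ 0 := by omega
  obtain ⟨c1, -, -⟩ := coupleL i hc h2 hR hx w hw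
  have hsm := sg_mem hn h2 hR hr hx
  have hsl := sg_le hn h2 hR hr hrc hx
  have hst := two_sg_le hn h2 hR hr hrc hx
  set σ := sg (m + 2) r0 R r x with hσ
  have hrs : 0 < r - σ := by linarith [hsm.2]
  have hle : (∀ b, 0 < w b) → (i.insertNth σ (fun b => (r - σ) * w b) : Fin (m + 1) → ℝ) ≤
      i.insertNth x (fun b => (R - 2 * x) / c b * w b) := by
    intro hw0
    rw [Fin.insertNth_le_iff]
    refine ⟨by rw [Fin.insertNth_apply_same]; exact hsl, fun b => ?_⟩
    show (r - σ) * w b ≤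
      (i.insertNth x (fun b => (R - 2 * x) / c b * w b) : Fin (m + 1) → ℝ) (i.succAbove b)
    rw [Fin.insertNth_apply_succAbove]
    refine mul_le_mul_of_nonneg_right ?_ (hw0 b).le
    rw [le_div_iff₀ (hc b)]
    nlinarith [hc2 b]
  refine ⟨⟨fun h b => ?_, fun hw0 => ?_⟩, hle⟩
  · have h3 := h.1 (i.succAbove b)
    rw [Fin.insertNth_apply_succAbove] at h3
    exact (mul_pos_iff_of_pos_left hrs).1 h3
  · have h3 := c1.2 hw0
    have h4 := hle hw0
    refine ⟨?_, ?_, ?_⟩
    · rw [Fin.forall_iff_succAbove i]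
      refine ⟨by rw [Fin.insertNth_apply_same]; exact hsm.1, fun b => ?_⟩
      rw [Fin.insertNth_apply_succAbove]
      exact mul_pos hrs (hw0 b)
    · refine lt_of_le_of_lt ?_ h3.2.1
      refine add_le_add (mul_le_mul_of_nonneg_left (h4 i) zero_le_two)
        (Finset.sum_le_sum fun b _ => ?_)
      exact mul_le_mul_of_nonneg_left (h4 _) (hc b).le
    · exact lt_of_le_of_lt (h4 i) h3.2.2

/-- the weight of the slices -/
noncomputable def ew (m : ℕ) (R r0 x : ℝ) : ℝ := 2 * (R - 2 * x) ^ (m + 1) - (r0 - x) ^ (m + 1)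

include hc h2 hR hr in
/-- the ball, on the slices of the model -/
theorem ball_eqL (G : (Fin (m + 1) → ℝ) → ℝ≥0∞) (hG : Measurable G)
    (hsup : ∀ u, G u ≠ 0 → (∀ a, 0 < u a)) :
    ENNReal.ofReal ((R ^ (m + 2) - r0 ^ (m + 2)) / r ^ (m + 2) / ∏ b, c b) *
        ∫⁻ u, G u * ENNReal.ofReal (r - ∑ a, u a) =
      ∫⁻ x in Ioo 0 (R - r0), ENNReal.ofReal (ew m R r0 x / ∏ b, c b) *
        Phi i G (sg (m + 2) r0 R r x) (fun _ => r - sg (m + 2) r0 R r x) := by
  have hn : m + 2 ≠ 0 := by omega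
  have hP : 0 < ∏ b, c b := Finset.prod_pos fun b _ => hc b
  have hD := DD_pos hn h2 hR
  have hrn : 0 < r ^ (m + 2) := pow_pos hr _
  rw [ball_eq i hr G hG hsup, ← sg_image hn h2 hR hr]
  choose! D hD1 hD2 using fun (s : ℝ) (hs : s ∈ Ioo 0 (R - r0)) =>
    hasDerivAt_sg (r := r) hn h2 hR hs
  rw [lintegral_image_eq_lintegral_abs_deriv_mul measurableSet_Ioo
    (fun s hs => (hD1 s hs).hasDerivWithinAt) (sg_inj hn h2 hR hr),
    ← lintegral_const_mul' _ _ ENNReal.ofReal_ne_top]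
  refine setLIntegral_congr_fun measurableSet_Ioo fun x hx => ?_
  have he := ee_pos hn h2 hx
  have hsm := sg_mem hn h2 hR hr hx
  have hrs : 0 < r - sg (m + 2) r0 R r x := by linarith [hsm.2]
  have e1 : m + 2 - 1 = m + 1 := by omega
  have h3 := hD2 x hx
  rw [e1] at h3 he
  have hDp : 0 < D x := by
    have h4 : 0 < (r - sg (m + 2) r0 R r x) ^ (m + 1) * D x := by
      rw [h3]; positivity
    exact (mul_pos_iff_of_pos_left (pow_pos hrs _)).1 h4
  rw [abs_of_pos hDp, ← mul_assoc, ← mul_assoc, ← ENNReal.ofReal_mul (by positivity),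
    ← ENNReal.ofReal_mul (by positivity)]
  congr 2
  have h5 : (R ^ (m + 2) - r0 ^ (m + 2)) / r ^ (m + 2) / (∏ b, c b) * D x *
      (r - sg (m + 2) r0 R r x) ^ (m + 1) =
      (R ^ (m + 2) - r0 ^ (m + 2)) / r ^ (m + 2) / (∏ b, c b) *
        ((r - sg (m + 2) r0 R r x) ^ (m + 1) * D x) := by ring
  rw [h5, h3]
  unfold ew
  field_simp

theorem Phi_meas (G : (Fin (m + 1) → ℝ) → ℝ≥0∞) (hG : Measurable G) {D : ℝ → Fin m → ℝ}
    (hD : Measurable D) : Measurable fun x : ℝ => Phi i G x (D x) := by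
  unfold Phi
  have h1 : Measurable fun p : ℝ × (Fin m → ℝ) =>
      G (i.insertNth p.1 fun b => D p.1 b * p.2 b) * ENNReal.ofReal (1 - ∑ b, p.2 b) := by
    refine Measurable.mul ?_ (Measurable.ennreal_ofReal (by fun_prop))
    refine hG.comp ?_
    have h2 := (MeasurableEquiv.piFinSuccAbove (fun _ : Fin (m + 1) => ℝ) i).symm.measurable
    have h3 : Measurable fun p : ℝ × (Fin m → ℝ) => (fun b => D p.1 b * p.2 b : Fin m → ℝ) := by
      refine measurable_pi_lambda _ fun b => ?_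
      exact ((measurable_pi_apply b).comp (hD.comp measurable_fst)).mul
        ((measurable_pi_apply b).comp measurable_snd)
    exact h2.comp (measurable_fst.prodMk h3)
  exact h1.lintegral_prod_right'

/-- weights on all coordinates -/
def cf (i : Fin (m + 1)) (c : Fin m → ℝ) : Fin (m + 1) → ℝ := i.insertNth 2 c

theorem cf_sum (u : Fin (m + 1) → ℝ) :
    ∑ a, cf i c a * u a = 2 * u i + ∑ b, c b * u (i.succAbove b) := by
  rw [Fin.sum_univ_succAbove _ i]
  simp [cf]

include hc in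
theorem cf_pos : ∀ a, 0 < cf i c a := by
  rw [Fin.forall_iff_succAbove i]
  refine ⟨by simp [cf], fun b => by simpa [cf] using hc b⟩

include hc in
theorem OmL_fin : volume (OmL i c R r0) ≠ ⊤ := by
  refine fin_vol (B := ∑ a, R / cf i c a) fun u hu a => ⟨(hu.1 a).le, ?_⟩
  exact coord_le (cf_pos i hc) (fun a => (hu.1 a).le) (by rw [cf_sum]; exact hu.2.1) a

include hc h2 hR in
/-- the three integrals of the model -/
theorem model_eqs (G : (Fin (m + 1) → ℝ) → ℝ≥0∞) (hG : Measurable G)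
    (hsup : ∀ u, G u ≠ 0 → u ∈ OmL i c R r0) :
    (∫⁻ u, G u * ENNReal.ofReal (EE i c R r0 u)) +
        (∫⁻ x in Ioo 0 (R - r0), ENNReal.ofReal ((r0 - x) ^ (m + 1) / ∏ b, c b) *
          Phi i G x (fun b => (r0 - x) / c b)) =
      ∫⁻ x in Ioo 0 (R - r0), ENNReal.ofReal (2 * (R - 2 * x) ^ (m + 1) / ∏ b, c b) *
        Phi i G x (fun b => (R - 2 * x) / c b) := by
  have hsup' : ∀ u, G u ≠ 0 → 0 < u i ∧ u i < R - r0 := fun u hu =>
    ⟨(hsup u hu).1 i, (hsup u hu).2.2⟩
  have hP : 0 < ∏ b, c b := Finset.prod_pos fun b _ => hc b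
  have h3 := slice_gen i c hc (α := fun x => r0 - x) (by fun_prop) (ρ := R - r0)
    (fun x hx => by linarith [hx.1, hx.2]) G hG hsup'
  have h4 := slice_gen i c hc (α := fun x => R - 2 * x) (by fun_prop) (ρ := R - r0)
    (fun x hx => by linarith [hx.1, hx.2]) G hG hsup'
  have h5 : ∫⁻ x in Ioo 0 (R - r0), ENNReal.ofReal (2 * (R - 2 * x) ^ (m + 1) / ∏ b, c b) *
        Phi i G x (fun b => (R - 2 * x) / c b) =
      ENNReal.ofReal 2 * ∫⁻ u, G u *
        ENNReal.ofReal (R - 2 * u i - ∑ b, c b * u (i.succAbove b)) := by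
    rw [h4, ← lintegral_const_mul' _ _ ENNReal.ofReal_ne_top]
    refine setLIntegral_congr_fun measurableSet_Ioo fun x hx => ?_
    have hA : 0 < R - 2 * x := by linarith [hx.1, hx.2]
    rw [← mul_assoc, ← ENNReal.ofReal_mul zero_le_two]
    congr 2
    ring
  rw [h5, ← h3, ← lintegral_const_mul' _ _ ENNReal.ofReal_ne_top, ← lintegral_add_left]
  · refine lintegral_congr fun u => ?_
    by_cases h0 : G u = 0
    · simp [h0]
    · have hu := hsup u h0
      have hE := EE_nonneg i hu.2.1 hu.2.2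
      rw [← mul_add, mul_left_comm, ← ENNReal.ofReal_mul zero_le_two]
      congr 1
      have e1 : ENNReal.ofReal (r0 - u i - ∑ b, c b * u (i.succAbove b)) =
          ENNReal.ofReal (max (r0 - (u i + ∑ b, c b * u (i.succAbove b))) 0) := by
        rw [sub_sub]
        rcases le_total (r0 - (u i + ∑ b, c b * u (i.succAbove b))) 0 with h | h
        · rw [max_eq_right h, ENNReal.ofReal_of_nonpos h, ENNReal.ofReal_zero]
        · rw [max_eq_left h]
      rw [e1, ← ENNReal.ofReal_add hE (le_max_right _ _)]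
      congr 1
      unfold EE
      ring
  · exact hG.mul (EE_meas i).ennreal_ofReal

include hc hc2 h2 hR hr hrc in
theorem ball_leL (h : (Fin (m + 1) → ℝ) → ℝ) (hm : Measurable ((OmL i c R r0).indicator h))
    {M : ℝ} (hM : ∀ u ∈ OmL i c R r0, h u ≤ M)
    (hanti : ∀ u ∈ OmL i c R r0, ∀ v ∈ OmL i c R r0, u ≤ v → h v ≤ h u) :
    ∫⁻ u in OmL i c R r0, ENNReal.ofReal (h u) * ENNReal.ofReal (EE i c R r0 u) ≤
      ENNReal.ofReal ((R ^ (m + 2) - r0 ^ (m + 2)) / r ^ (m + 2) / ∏ b, c b) *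
        ∫⁻ u in OmL i c R r0, ENNReal.ofReal (h u) * ENNReal.ofReal (r - ∑ a, u a) := by
  have hP : 0 < ∏ b, c b := Finset.prod_pos fun b _ => hc b
  set G : (Fin (m + 1) → ℝ) → ℝ≥0∞ :=
    fun u => ENNReal.ofReal ((OmL i c R r0).indicator h u) with hG
  have hGm : Measurable G := hm.ennreal_ofReal
  have hGsup : ∀ u, G u ≠ 0 → u ∈ OmL i c R r0 := by
    intro u hu
    by_contra h0
    exact hu (by rw [hG]; simp [indicator_of_notMem h0])
  have hGe : ∀ u ∈ OmL i c R r0, G u = ENNReal.ofReal (h u) := fun u hu => by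
    rw [hG]; simp only [indicator_of_mem hu]
  have hGle : ∀ u v, u ∈ OmL i c R r0 → v ∈ OmL i c R r0 → u ≤ v → G v ≤ G u := by
    intro u v hu hv huv
    rw [hGe u hu, hGe v hv]
    exact ENNReal.ofReal_le_ofReal (hanti u hu v hv huv)
  have e1 : ∀ F : (Fin (m + 1) → ℝ) → ℝ≥0∞,
      ∫⁻ u in OmL i c R r0, ENNReal.ofReal (h u) * F u = ∫⁻ u, G u * F u := by
    intro F
    rw [← lintegral_indicator (OmL_meas i)]
    refine lintegral_congr fun u => ?_
    by_cases hu : u ∈ OmL i c R r0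
    · rw [indicator_of_mem hu, hGe u hu]
    · rw [indicator_of_notMem hu]
      have : G u = 0 := by
        by_contra h0
        exact hu (hGsup u h0)
      rw [this, zero_mul]
  have hmod := model_eqs i hc h2 hR G hGm hGsup
  rw [e1, e1, ball_eqL i hc h2 hR hr G hGm fun u hu => (hGsup u hu).1]
  set W := ∫⁻ x in Ioo 0 (R - r0), ENNReal.ofReal ((r0 - x) ^ (m + 1) / ∏ b, c b) *
          Phi i G x (fun b => (r0 - x) / c b) with hW
  -- `W` is finite
  have hWfin : W ≠ ⊤ := by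
    have h3 := slice_gen i c hc (α := fun x => r0 - x) (by fun_prop) (ρ := R - r0)
      (fun x hx => by linarith [hx.1, hx.2]) G hGm
      (fun u hu => ⟨(hGsup u hu).1 i, (hGsup u hu).2.2⟩)
    rw [hW, ← h3]
    have h4 : ∫⁻ u, G u * ENNReal.ofReal (r0 - u i - ∑ b, c b * u (i.succAbove b)) ≤
        ∫⁻ u in OmL i c R r0, ENNReal.ofReal M * ENNReal.ofReal r0 := by
      rw [← lintegral_indicator (OmL_meas i)]
      refine lintegral_mono fun u => ?_
      by_cases hu : u ∈ OmL i c R r0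
      · rw [indicator_of_mem hu, hGe u hu]
        refine mul_le_mul' (ENNReal.ofReal_le_ofReal (hM u hu)) (ENNReal.ofReal_le_ofReal ?_)
        have h5 : 0 ≤ ∑ b, c b * u (i.succAbove b) :=
          Finset.sum_nonneg fun b _ => mul_nonneg (hc b).le (hu.1 _).le
        linarith [hu.1 i]
      · have : G u = 0 := by
          by_contra h0
          exact hu (hGsup u h0)
        simp only
        rw [this, zero_mul]
        exact bot_le
    refine ne_top_of_le_ne_top ?_ h4
    rw [setLIntegral_const]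
    exact ENNReal.mul_ne_top (ENNReal.mul_ne_top ENNReal.ofReal_ne_top ENNReal.ofReal_ne_top)
      (OmL_fin i hc)
  refine (ENNReal.add_le_add_iff_right hWfin).1 ?_
  rw [hmod, hW, ← lintegral_add_right' _ ?_]
  · refine setLIntegral_mono' measurableSet_Ioo fun x hx => ?_
    have he := ee_pos (by omega : m + 2 ≠ 0) h2 hx
    have e1 : m + 2 - 1 = m + 1 := by omega
    rw [e1] at he
    have hB : 0 < r0 - x := by linarith [hx.1, hx.2]
    have h6 : ENNReal.ofReal (2 * (R - 2 * x) ^ (m + 1) / ∏ b, c b) =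
        ENNReal.ofReal (ew m R r0 x / ∏ b, c b) +
          ENNReal.ofReal ((r0 - x) ^ (m + 1) / ∏ b, c b) := by
      have h7 : 0 ≤ ew m R r0 x / ∏ b, c b := div_nonneg he.le hP.le
      have h8 : 0 ≤ (r0 - x) ^ (m + 1) / ∏ b, c b := div_nonneg (pow_nonneg hB.le _) hP.le
      rw [← ENNReal.ofReal_add h7 h8]
      congr 1
      unfold ew
      ring
    rw [h6, add_mul]
    refine add_le_add (mul_le_mul_right ?_ _) (mul_le_mul_right ?_ _)
    · refine lintegral_mono fun w => ?_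
      by_cases hw : ∑ b, w b < 1
      · refine mul_le_mul_left ?_ _
        obtain ⟨c1, c2, c3⟩ := coupleL i hc h2 hR hx w hw
        obtain ⟨c4, c5⟩ := coupleS i hc hc2 h2 hR hr hrc hx w hw
        by_cases hw0 : ∀ b, 0 < w b
        · exact hGle _ _ (c4.2 hw0) (c1.2 hw0) (c5 hw0)
        · have : G (i.insertNth x fun b => (R - 2 * x) / c b * w b) = 0 := by
            by_contra h0
            exact hw0 (c1.1 (hGsup _ h0))
          rw [this]
          exact bot_le
      · rw [ENNReal.ofReal_of_nonpos (by linarith : 1 - ∑ b, w b ≤ 0), mul_zero, mul_zero]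
    · refine lintegral_mono fun w => ?_
      by_cases hw : ∑ b, w b < 1
      · refine mul_le_mul_left ?_ _
        obtain ⟨c1, c2, c3⟩ := coupleL i hc h2 hR hx w hw
        by_cases hw0 : ∀ b, 0 < w b
        · exact hGle _ _ (c2.2 hw0) (c1.2 hw0) (c3 hw0)
        · have : G (i.insertNth x fun b => (R - 2 * x) / c b * w b) = 0 := by
            by_contra h0
            exact hw0 (c1.1 (hGsup _ h0))
          rw [this]
          exact bot_le
      · rw [ENNReal.ofReal_of_nonpos (by linarith : 1 - ∑ b, w b ≤ 0), mul_zero, mul_zero]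
  · refine Measurable.aemeasurable (Measurable.mul ?_ ?_)
    · exact Measurable.ennreal_ofReal (by fun_prop)
    · exact Phi_meas i G hGm (by fun_prop)

include hc hc2 h2 hR hr hrc in
theorem ball_oneL :
    ∫⁻ u in OmL i c R r0, ENNReal.ofReal (EE i c R r0 u) =
      ENNReal.ofReal ((R ^ (m + 2) - r0 ^ (m + 2)) / r ^ (m + 2) / ∏ b, c b) *
        ∫⁻ u in OmL i c R r0, ENNReal.ofReal (r - ∑ a, u a) := by
  have hP : 0 < ∏ b, c b := Finset.prod_pos fun b _ => hc b
  set G : (Fin (m + 1) → ℝ) → ℝ≥0∞ := (OmL i c R r0).indicator (fun _ => 1) with hG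
  have hGm : Measurable G := measurable_const.indicator (OmL_meas i)
  have hGsup : ∀ u, G u ≠ 0 → u ∈ OmL i c R r0 := by
    intro u hu
    by_contra h0
    exact hu (by rw [hG]; simp [indicator_of_notMem h0])
  have hGe : ∀ u ∈ OmL i c R r0, G u = 1 := fun u hu => by
    rw [hG]; simp only [indicator_of_mem hu]
  have e1 : ∀ F : (Fin (m + 1) → ℝ) → ℝ≥0∞,
      ∫⁻ u in OmL i c R r0, F u = ∫⁻ u, G u * F u := by
    intro F
    rw [← lintegral_indicator (OmL_meas i)]
    refine lintegral_congr fun u => ?_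
    by_cases hu : u ∈ OmL i c R r0
    · rw [indicator_of_mem hu, hGe u hu, one_mul]
    · rw [indicator_of_notMem hu]
      have : G u = 0 := by
        by_contra h0
        exact hu (hGsup u h0)
      rw [this, zero_mul]
  have hmod := model_eqs i hc h2 hR G hGm hGsup
  rw [e1, e1, ball_eqL i hc h2 hR hr G hGm fun u hu => (hGsup u hu).1]
  have hval : ∀ w : Fin m → ℝ, ∀ v : Fin (m + 1) → ℝ, (v ∈ OmL i c R r0 ↔ ∀ b, 0 < w b) →
      G v = if (∀ b, 0 < w b) then 1 else 0 := by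
    intro w v hv
    split_ifs with h
    · exact hGe _ (hv.2 h)
    · by_contra h0
      exact h (hv.1 (hGsup _ h0))
  set V : ℝ≥0∞ := ∫⁻ w : Fin m → ℝ, (if (∀ b, 0 < w b) then 1 else 0) *
    ENNReal.ofReal (1 - ∑ b, w b) with hV
  have hPhi : ∀ x ∈ Ioo 0 (R - r0), Phi i G x (fun b => (R - 2 * x) / c b) = V ∧
      Phi i G x (fun b => (r0 - x) / c b) = V ∧
      Phi i G (sg (m + 2) r0 R r x) (fun _ => r - sg (m + 2) r0 R r x) = V := by
    intro x hx
    refine ⟨?_, ?_, ?_⟩ <;>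
    · refine lintegral_congr fun w => ?_
      by_cases hw : ∑ b, w b < 1
      · congr 1
        obtain ⟨c1, c2, c3⟩ := coupleL i hc h2 hR hx w hw
        obtain ⟨c4, c5⟩ := coupleS i hc hc2 h2 hR hr hrc hx w hw
        first
          | exact hval w _ c1
          | exact hval w _ c2
          | exact hval w _ c4
      · rw [ENNReal.ofReal_of_nonpos (by linarith : 1 - ∑ b, w b ≤ 0), mul_zero, mul_zero]
  set W := ∫⁻ x in Ioo 0 (R - r0), ENNReal.ofReal ((r0 - x) ^ (m + 1) / ∏ b, c b) *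
          Phi i G x (fun b => (r0 - x) / c b) with hW
  -- `W` is finite
  have hWfin : W ≠ ⊤ := by
    have h3 := slice_gen i c hc (α := fun x => r0 - x) (by fun_prop) (ρ := R - r0)
      (fun x hx => by linarith [hx.1, hx.2]) G hGm
      (fun u hu => ⟨(hGsup u hu).1 i, (hGsup u hu).2.2⟩)
    rw [hW, ← h3]
    have h4 : ∫⁻ u, G u * ENNReal.ofReal (r0 - u i - ∑ b, c b * u (i.succAbove b)) ≤
        ∫⁻ u in OmL i c R r0, ENNReal.ofReal r0 := by
      rw [← lintegral_indicator (OmL_meas i)]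
      refine lintegral_mono fun u => ?_
      by_cases hu : u ∈ OmL i c R r0
      · rw [indicator_of_mem hu, hGe u hu, one_mul]
        refine ENNReal.ofReal_le_ofReal ?_
        have h5 : 0 ≤ ∑ b, c b * u (i.succAbove b) :=
          Finset.sum_nonneg fun b _ => mul_nonneg (hc b).le (hu.1 _).le
        linarith [hu.1 i]
      · have : G u = 0 := by
          by_contra h0
          exact hu (hGsup u h0)
        simp only
        rw [this, zero_mul]
        exact bot_le
    refine ne_top_of_le_ne_top ?_ h4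
    rw [setLIntegral_const]
    exact ENNReal.mul_ne_top ENNReal.ofReal_ne_top (OmL_fin i hc)
  refine (ENNReal.add_left_inj hWfin).1 ?_
  rw [hmod, hW, ← lintegral_add_right' _ ?_]
  · refine setLIntegral_congr_fun measurableSet_Ioo fun x hx => ?_
    have he := ee_pos (by omega : m + 2 ≠ 0) h2 hx
    have e1 : m + 2 - 1 = m + 1 := by omega
    rw [e1] at he
    have hB : 0 < r0 - x := by linarith [hx.1, hx.2]
    obtain ⟨p1, p2, p3⟩ := hPhi x hx
    rw [p1, p2, p3, ← add_mul]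
    congr 1
    have h7 : 0 ≤ ew m R r0 x / ∏ b, c b := div_nonneg he.le hP.le
    have h8 : 0 ≤ (r0 - x) ^ (m + 1) / ∏ b, c b := div_nonneg (pow_nonneg hB.le _) hP.le
    rw [← ENNReal.ofReal_add h7 h8]
    congr 1
    unfold ew
    ring
  · refine Measurable.aemeasurable (Measurable.mul ?_ ?_)
    · exact Measurable.ennreal_ofReal (by fun_prop)
    · exact Phi_meas i G hGm (by fun_prop)

end ball

/-! ## 4. Real integrals -/

/-- from nonnegative functions to functions of any sign -/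
theorem real_of_lint_bdd {d : ℕ} {Ω : Set (Fin d → ℝ)} (hΩ : MeasurableSet Ω) (hfin : volume Ω ≠ ⊤)
    {C t : (Fin d → ℝ) → ℝ} (hC : Measurable C) (ht : Measurable t) {B : ℝ}
    (hCb : ∀ u ∈ Ω, |C u| ≤ B) (htb : ∀ u ∈ Ω, |t u| ≤ B) (hC0 : ∀ u ∈ Ω, 0 ≤ C u) {K : ℝ}
    (hK : 0 ≤ K)
    (hle : ∀ h : (Fin d → ℝ) → ℝ, Measurable (Ω.indicator h) → ∀ M : ℝ, (∀ u ∈ Ω, h u ≤ M) →
      (∀ u ∈ Ω, ∀ v ∈ Ω, u ≤ v → h v ≤ h u) →
      ∫⁻ u in Ω, ENNReal.ofReal (h u) * ENNReal.ofReal (C u) ≤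
        ENNReal.ofReal K * ∫⁻ u in Ω, ENNReal.ofReal (h u) * ENNReal.ofReal (t u))
    (hone : ∫⁻ u in Ω, ENNReal.ofReal (C u) =
      ENNReal.ofReal K * ∫⁻ u in Ω, ENNReal.ofReal (t u))
    (g : (Fin d → ℝ) → ℝ) {M : ℝ} (hM : ∀ u ∈ Ω, |g u| ≤ M) (hgm : Measurable (Ω.indicator g))
    (hanti : ∀ u ∈ Ω, ∀ v ∈ Ω, u ≤ v → g v ≤ g u) :
    ∫ u in Ω, g u * C u ≤ K * ∫ u in Ω, g u * max (t u) 0 := by
  have hgae : AEStronglyMeasurable g (volume.restrict Ω) := by
    refine (hgm.aestronglyMeasurable (μ := volume.restrict Ω)).congr ?_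
    filter_upwards [ae_restrict_mem hΩ] with u hu
    rw [indicator_of_mem hu]
  have : IsFiniteMeasure (volume.restrict Ω) := ⟨by
    rw [Measure.restrict_apply_univ]; exact lt_top_iff_ne_top.2 hfin⟩
  have hB0 : ∀ u ∈ Ω, 0 ≤ B := fun u hu => (abs_nonneg _).trans (hCb u hu)
  have iC : Integrable C (volume.restrict Ω) := by
    refine Integrable.of_bound hC.aestronglyMeasurable B ?_
    filter_upwards [ae_restrict_mem hΩ] with u hu
    exact hCb u hu
  have htm : Measurable fun u => max (t u) 0 := ht.max measurable_const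
  have it : Integrable (fun u => max (t u) 0) (volume.restrict Ω) := by
    refine Integrable.of_bound htm.aestronglyMeasurable B ?_
    filter_upwards [ae_restrict_mem hΩ] with u hu
    rw [Real.norm_eq_abs, abs_of_nonneg (le_max_right _ _)]
    exact max_le ((le_abs_self _).trans (htb u hu)) (hB0 u hu)
  have igC : Integrable (fun u => g u * C u) (volume.restrict Ω) := by
    refine iC.bdd_mul hgae (c := M) ?_
    filter_upwards [ae_restrict_mem hΩ] with u hu
    exact hM u hu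
  have igt : Integrable (fun u => g u * max (t u) 0) (volume.restrict Ω) := by
    refine it.bdd_mul hgae (c := M) ?_
    filter_upwards [ae_restrict_mem hΩ] with u hu
    exact hM u hu
  -- the shifted function
  have h1 := hle (fun u => g u + M) (by
      have : Ω.indicator (fun u => g u + M) = Ω.indicator g + Ω.indicator (fun _ => M) := by
        funext u
        by_cases hu : u ∈ Ω
        · simp [hu]
        · simp [hu]
      rw [this]
      exact hgm.add (measurable_const.indicator hΩ))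
    (M + M) (fun u hu => by linarith [(abs_le.1 (hM u hu)).2])
    (fun u hu v hv huv => by linarith [hanti u hu v hv huv])
  have hg0 : ∀ u ∈ Ω, 0 ≤ g u + M := fun u hu => by linarith [(abs_le.1 (hM u hu)).1]
  have r1 : ∫⁻ u in Ω, ENNReal.ofReal (g u + M) * ENNReal.ofReal (C u) =
      ENNReal.ofReal (∫ u in Ω, (g u + M) * C u) := by
    rw [ofReal_integral_eq_lintegral_ofReal]
    · refine setLIntegral_congr_fun hΩ fun u hu => ?_
      exact (ENNReal.ofReal_mul (hg0 u hu)).symm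
    · have : (fun u => (g u + M) * C u) = fun u => g u * C u + M * C u := by
        funext u; ring
      rw [this]
      exact igC.add (iC.const_mul M)
    · filter_upwards [ae_restrict_mem hΩ] with u hu
      exact mul_nonneg (hg0 u hu) (hC0 u hu)
  have r2 : ∫⁻ u in Ω, ENNReal.ofReal (g u + M) * ENNReal.ofReal (t u) =
      ENNReal.ofReal (∫ u in Ω, (g u + M) * max (t u) 0) := by
    rw [ofReal_integral_eq_lintegral_ofReal]
    · refine setLIntegral_congr_fun hΩ fun u hu => ?_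
      show ENNReal.ofReal (g u + M) * ENNReal.ofReal (t u) =
        ENNReal.ofReal ((g u + M) * max (t u) 0)
      rw [ENNReal.ofReal_mul (hg0 u hu)]
      congr 1
      rcases le_total (t u) 0 with h | h
      · rw [max_eq_right h, ENNReal.ofReal_of_nonpos h, ENNReal.ofReal_zero]
      · rw [max_eq_left h]
    · have : (fun u => (g u + M) * max (t u) 0) = fun u => g u * max (t u) 0 + M * max (t u) 0 := by
        funext u; ring
      rw [this]
      exact igt.add (it.const_mul M)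
    · filter_upwards [ae_restrict_mem hΩ] with u hu
      exact mul_nonneg (hg0 u hu) (le_max_right _ _)
  have r3 : ∫⁻ u in Ω, ENNReal.ofReal (C u) = ENNReal.ofReal (∫ u in Ω, C u) := by
    rw [ofReal_integral_eq_lintegral_ofReal iC]
    filter_upwards [ae_restrict_mem hΩ] with u hu
    exact hC0 u hu
  have r4 : ∫⁻ u in Ω, ENNReal.ofReal (t u) = ENNReal.ofReal (∫ u in Ω, max (t u) 0) := by
    rw [ofReal_integral_eq_lintegral_ofReal it]
    · refine lintegral_congr fun u => ?_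
      rcases le_total (t u) 0 with h | h
      · rw [max_eq_right h, ENNReal.ofReal_of_nonpos h, ENNReal.ofReal_zero]
      · rw [max_eq_left h]
    · filter_upwards with u
      exact le_max_right _ _
  have n1 : 0 ≤ ∫ u in Ω, C u := setIntegral_nonneg hΩ hC0
  have n2 : 0 ≤ ∫ u in Ω, max (t u) 0 := setIntegral_nonneg hΩ fun u _ => le_max_right _ _
  have n3 : 0 ≤ ∫ u in Ω, (g u + M) * max (t u) 0 :=
    setIntegral_nonneg hΩ fun u hu => mul_nonneg (hg0 u hu) (le_max_right _ _)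
  rw [r1, r2, ← ENNReal.ofReal_mul hK, ENNReal.ofReal_le_ofReal_iff (mul_nonneg hK n3)] at h1
  rw [r3, r4, ← ENNReal.ofReal_mul hK, ENNReal.ofReal_eq_ofReal_iff n1 (mul_nonneg hK n2)] at hone
  have s1 : ∫ u in Ω, (g u + M) * C u = (∫ u in Ω, g u * C u) + M * ∫ u in Ω, C u := by
    rw [← integral_const_mul, ← integral_add igC (iC.const_mul M)]
    refine integral_congr_ae (Filter.Eventually.of_forall fun u => ?_)
    simp only
    ring
  have s2 : ∫ u in Ω, (g u + M) * max (t u) 0 =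
      (∫ u in Ω, g u * max (t u) 0) + M * ∫ u in Ω, max (t u) 0 := by
    rw [← integral_const_mul, ← integral_add igt (it.const_mul M)]
    refine integral_congr_ae (Filter.Eventually.of_forall fun u => ?_)
    simp only
    ring
  rw [s1, s2, hone] at h1
  nlinarith


/-! ## 5. Final form -/

/-- the lobe model `{u ≥ 0, 2 u_i + ∑ c_b u_b < R, u_i < R - r0}` -/
def OmLc {m : ℕ} (i : Fin (m + 1)) (c : Fin m → ℝ) (R r0 : ℝ) : Set (Fin (m + 1) → ℝ) :=
  {u | (∀ a, 0 ≤ u a) ∧ 2 * u i + ∑ b, c b * u (i.succAbove b) < R ∧ u i < R - r0}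

/-- DOMINATION, LOBE CASE: one big ball `r0`, `R / 2 ≤ r0 < R`, put in statically as a lobe; all
other balls satisfy `r ≤ R - r0`.  For the 4-cycle in dimension `n = m + 2`: `i = 0`,
`c = (2, 1, …, 1)`, and `κ * EE` is `κ / 2` times the capacity function `C - 2 w`. -/
theorem domL {m : ℕ} (i : Fin (m + 1)) {c : Fin m → ℝ} (hc : ∀ b, 0 < c b) (hc2 : ∀ b, c b ≤ 2)
    {R r0 : ℝ} (h2 : R ≤ 2 * r0) (hR : r0 < R) (rs : List ℝ)
    (hrs : ∀ r ∈ rs, 0 < r ∧ r ≤ R - r0) {κ : ℝ}
    (hκ : κ * (R ^ (m + 2) - r0 ^ (m + 2)) = (∏ b, c b) * (rs.map fun r => r ^ (m + 2)).sum)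
    {g : (Fin (m + 1) → ℝ) → ℝ} {M : ℝ} (hM : ∀ u ∈ OmLc i c R r0, |g u| ≤ M)
    (hcont : ContinuousOn g (OmLc i c R r0))
    (hanti : ∀ u ∈ OmLc i c R r0, ∀ v ∈ OmLc i c R r0, u ≤ v → g v ≤ g u) :
    ∫ u in OmLc i c R r0, g u * (κ * EE i c R r0 u -
      (rs.map fun r => max (r - ∑ a, u a) 0).sum) ≤ 0 := by
  have hsub : OmL i c R r0 ⊆ OmLc i c R r0 := fun u hu => ⟨fun a => (hu.1 a).le, hu.2⟩
  have hae : (OmLc i c R r0 : Set (Fin (m + 1) → ℝ)) =ᵐ[volume] OmL i c R r0 := by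
    filter_upwards [ae_pos] with u hu
    exact propext ⟨fun h => ⟨fun a => lt_of_le_of_ne (h.1 a) (hu a).symm, h.2⟩, fun h => hsub h⟩
  rw [setIntegral_congr_set hae]
  have hRp : 0 < R := by linarith
  have hr0 : 0 < r0 := by linarith
  have hP : 0 < ∏ b, c b := Finset.prod_pos fun b _ => hc b
  have hpos : 0 < R ^ (m + 2) - r0 ^ (m + 2) := DD_pos (by omega) h2 hR
  have hΩ : MeasurableSet (OmL i c R r0) := OmL_meas i
  have hgm := indicator_meas hΩ (hcont.mono hsub)
  have hfin : volume (OmL i c R r0) ≠ ⊤ := OmL_fin i hc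
  have : IsFiniteMeasure (volume.restrict (OmL i c R r0)) := ⟨by
    rw [Measure.restrict_apply_univ]; exact lt_top_iff_ne_top.2 hfin⟩
  have hgae : AEStronglyMeasurable g (volume.restrict (OmL i c R r0)) := by
    refine (hgm.aestronglyMeasurable (μ := volume.restrict (OmL i c R r0))).congr ?_
    filter_upwards [ae_restrict_mem hΩ] with u hu
    rw [indicator_of_mem hu]
  have hC0 : ∀ u ∈ OmL i c R r0, 0 ≤ EE i c R r0 u := fun u hu => EE_nonneg i hu.2.1 hu.2.2
  have hS0 : ∀ u ∈ OmL i c R r0, 0 ≤ ∑ b, c b * u (i.succAbove b) := fun u hu =>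
    Finset.sum_nonneg fun b _ => mul_nonneg (hc b).le (hu.1 _).le
  have hCle : ∀ u ∈ OmL i c R r0, EE i c R r0 u ≤ 2 * R := fun u hu => by
    unfold EE
    have := le_max_right (r0 - (u i + ∑ b, c b * u (i.succAbove b))) 0
    linarith [hS0 u hu, hu.1 i]
  have hs0 : ∀ u ∈ OmL i c R r0, 0 ≤ ∑ a, u a := fun u hu =>
    Finset.sum_nonneg fun a _ => (hu.1 a).le
  have hsB : ∀ u ∈ OmL i c R r0, ∑ a, u a ≤ ∑ a : Fin (m + 1), ∑ a, R / cf i c a := fun u hu =>
    Finset.sum_le_sum fun a _ =>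
      coord_le (cf_pos i hc) (fun a => (hu.1 a).le) (by rw [cf_sum]; exact hu.2.1) a
  have hB3 : 0 ≤ ∑ a : Fin (m + 1), ∑ a, R / cf i c a := Finset.sum_nonneg fun _ _ =>
    Finset.sum_nonneg fun a _ => (div_pos hRp (cf_pos i hc a)).le
  have iC : IntegrableOn (fun u => g u * EE i c R r0 u) (OmL i c R r0) := by
    have h1 : Integrable (EE i c R r0) (volume.restrict (OmL i c R r0)) := by
      refine Integrable.of_bound (EE_meas i).aestronglyMeasurable (2 * R) ?_
      filter_upwards [ae_restrict_mem hΩ] with u hu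
      rw [Real.norm_eq_abs, abs_of_nonneg (hC0 u hu)]
      exact hCle u hu
    refine h1.bdd_mul hgae (c := M) ?_
    filter_upwards [ae_restrict_mem hΩ] with u hu
    exact hM u (hsub hu)
  have key := list_sum (Ω := OmL i c R r0) (g := g) (C := EE i c R r0)
    (t := fun r u => max (r - ∑ a, u a) 0)
    (a := fun r => (∏ b, c b) * r ^ (m + 2) / (R ^ (m + 2) - r0 ^ (m + 2))) iC rs (by
      intro r hr
      obtain ⟨hrp, hr1⟩ := hrs r hr
      have htm : Measurable fun u : Fin (m + 1) → ℝ => r - ∑ a, u a := by fun_prop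
      refine ⟨?_, ?_⟩
      · have h1 : Integrable (fun u : Fin (m + 1) → ℝ => max (r - ∑ a, u a) 0)
            (volume.restrict (OmL i c R r0)) := by
          refine Integrable.of_bound (htm.max measurable_const).aestronglyMeasurable r ?_
          filter_upwards [ae_restrict_mem hΩ] with u hu
          rw [Real.norm_eq_abs, abs_of_nonneg (le_max_right _ _)]
          exact max_le (by linarith [hs0 u hu]) hrp.le
        refine h1.bdd_mul hgae (c := M) ?_
        filter_upwards [ae_restrict_mem hΩ] with u hu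
        exact hM u (hsub hu)
      · have hK : 0 < (R ^ (m + 2) - r0 ^ (m + 2)) / r ^ (m + 2) / ∏ b, c b := by positivity
        have h3 := real_of_lint_bdd (Ω := OmL i c R r0) hΩ hfin (EE_meas i) htm
          (B := 2 * R + r + ∑ a : Fin (m + 1), ∑ a, R / cf i c a) (by
            intro u hu
            rw [abs_of_nonneg (hC0 u hu)]
            linarith [hCle u hu])
          (by
            intro u hu
            rw [abs_le]
            constructor <;> linarith [hs0 u hu, hsB u hu])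
          hC0 hK.le
          (fun h hm M hM ha => ball_leL i hc hc2 h2 hR hrp hr1 h hm hM ha)
          (ball_oneL i hc hc2 h2 hR hrp hr1) g (fun u hu => hM u (hsub hu)) hgm
          (fun u hu v hv huv => hanti u (hsub hu) v (hsub hv) huv)
        have h4 : (∏ b, c b) * r ^ (m + 2) / (R ^ (m + 2) - r0 ^ (m + 2)) *
            ((R ^ (m + 2) - r0 ^ (m + 2)) / r ^ (m + 2) / ∏ b, c b) = 1 := by
          have := hpos.ne'
          field_simp
        have h5 := mul_le_mul_of_nonneg_left h3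
          (by positivity : 0 ≤ (∏ b, c b) * r ^ (m + 2) / (R ^ (m + 2) - r0 ^ (m + 2)))
        rw [← mul_assoc, h4, one_mul] at h5
        exact h5)
  have hκ' : (rs.map fun r => (∏ b, c b) * r ^ (m + 2) / (R ^ (m + 2) - r0 ^ (m + 2))).sum =
      κ := by
    have h1 : (rs.map fun r => (∏ b, c b) * r ^ (m + 2) / (R ^ (m + 2) - r0 ^ (m + 2))) =
        rs.map fun r => ((∏ b, c b) / (R ^ (m + 2) - r0 ^ (m + 2))) * r ^ (m + 2) := by
      refine List.map_congr_left fun r _ => ?_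
      ring
    rw [h1, List.sum_map_mul_left, div_mul_eq_mul_div, div_eq_iff hpos.ne', hκ]
  rw [hκ'] at key
  exact key.2

end Vale.Agent.P209.H291
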